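import Mathlib

/-!
Injective holomorphic maps (non-vanishing derivative, holomorphic inverse) and a local form of
Hurwitz's theorem.
-/

set_option autoImplicit false

open Set Filter Metric Function
open scoped Topology

namespace Crest.Agent.Lib.RMT

/-- An injective function on an open set is not locally constant. -/
theorem not_eventually_const_of_injOn {U : Set ℂ} (hU : IsOpen U) {f : ℂ → ℂ}
    (hinj : Set.InjOn f U) {z : ℂ} (hz : z ∈ U) (c : ℂ) : ¬ (∀ᶠ w in 𝓝 z, f w = c) := by
  intro h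
  have hc : f z = c := h.self_of_nhds
  have h1 : ∀ᶠ w in 𝓝[≠] z, w = z := by
    filter_upwards [mem_nhdsWithin_of_mem_nhds h, mem_nhdsWithin_of_mem_nhds (hU.mem_nhds hz)]
      with w hw hwU
    exact hinj hwU hz (hw.trans hc.symm)
  have h2 : ∀ᶠ w in 𝓝[≠] z, w ≠ z := self_mem_nhdsWithin
  obtain ⟨w, hw1, hw2⟩ := (h1.and h2).exists
  exact hw2 hw1

/-- Open mapping theorem for injective holomorphic maps. -/
theorem nhds_le_map_of_injOn {U : Set ℂ} (hU : IsOpen U) {f : ℂ → ℂ}
    (hf : DifferentiableOn ℂ f U) (hinj : Set.InjOn f U) {z : ℂ} (hz : z ∈ U) :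
    𝓝 (f z) ≤ map f (𝓝 z) := by
  have ha : AnalyticAt ℂ f z := hf.analyticAt (hU.mem_nhds hz)
  rcases ha.eventually_constant_or_nhds_le_map_nhds with h | h
  · exact absurd h (not_eventually_const_of_injOn hU hinj hz _)
  · exact h

theorem isOpen_image_of_injOn {U : Set ℂ} (hU : IsOpen U) {f : ℂ → ℂ}
    (hf : DifferentiableOn ℂ f U) (hinj : Set.InjOn f U) : IsOpen (f '' U) := by
  rw [isOpen_iff_mem_nhds]
  rintro _ ⟨z, hz, rfl⟩
  exact nhds_le_map_of_injOn hU hf hinj hz (image_mem_map (hU.mem_nhds hz))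

theorem continuousAt_invFunOn {U : Set ℂ} (hU : IsOpen U) {f : ℂ → ℂ}
    (hf : DifferentiableOn ℂ f U) (hinj : Set.InjOn f U) {z : ℂ} (hz : z ∈ U) :
    ContinuousAt (invFunOn f U) (f z) := by
  have h1 : invFunOn f U (f z) = z := hinj.leftInvOn_invFunOn hz
  unfold ContinuousAt
  rw [h1]
  refine Tendsto.mono_left ?_ (nhds_le_map_of_injOn hU hf hinj hz)
  rw [tendsto_map'_iff]
  refine tendsto_id.congr' ?_
  filter_upwards [hU.mem_nhds hz] with w hw
  exact (hinj.leftInvOn_invFunOn hw).symm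

theorem eventually_rightInv {U : Set ℂ} (hU : IsOpen U) {f : ℂ → ℂ}
    (hf : DifferentiableOn ℂ f U) (hinj : Set.InjOn f U) {z : ℂ} (hz : z ∈ U) :
    ∀ᶠ y in 𝓝 (f z), f (invFunOn f U y) = y := by
  filter_upwards [(isOpen_image_of_injOn hU hf hinj).mem_nhds (mem_image_of_mem f hz)] with y hy
  exact invFunOn_eq hy

theorem hasDerivAt_invFunOn_of_ne {U : Set ℂ} (hU : IsOpen U) {f : ℂ → ℂ}
    (hf : DifferentiableOn ℂ f U) (hinj : Set.InjOn f U) {z : ℂ} (hz : z ∈ U)
    (hd : deriv f z ≠ 0) : HasDerivAt (invFunOn f U) (deriv f z)⁻¹ (f z) := by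
  refine HasDerivAt.of_local_left_inverse (continuousAt_invFunOn hU hf hinj hz) ?_ hd
    (eventually_rightInv hU hf hinj hz)
  rw [hinj.leftInvOn_invFunOn hz]
  exact (hf.differentiableAt (hU.mem_nhds hz)).hasDerivAt

/-- An injective holomorphic function has non-vanishing derivative. -/
theorem deriv_ne_zero_of_injOn {U : Set ℂ} (hU : IsOpen U) {f : ℂ → ℂ}
    (hf : DifferentiableOn ℂ f U) (hinj : Set.InjOn f U) {z : ℂ} (hz : z ∈ U) :
    deriv f z ≠ 0 := by
  intro h0
  have ha : AnalyticAt ℂ f z := hf.analyticAt (hU.mem_nhds hz)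
  have hda : AnalyticAt ℂ (deriv f) z := ha.deriv
  rcases hda.eventually_eq_zero_or_eventually_ne_zero with h | h
  · -- `f` would be locally constant
    obtain ⟨r, hr, hb⟩ := Metric.mem_nhds_iff.1 (h.and (hU.mem_nhds hz))
    refine not_eventually_const_of_injOn hU hinj hz (f z) ?_
    filter_upwards [ball_mem_nhds z hr] with w hw
    exact isOpen_ball.is_const_of_deriv_eq_zero (convex_ball z r).isPreconnected
      (hf.mono fun x hx => (hb hx).2) (fun x hx => (hb hx).1) hw (mem_ball_self hr)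
  · -- the inverse is differentiable at `f z` by the removable singularity theorem
    have hc := continuousAt_invFunOn hU hf hinj hz
    have hg : ∀ᶠ y in 𝓝[≠] (f z), DifferentiableAt ℂ (invFunOn f U) y := by
      have h' : ∀ᶠ w in 𝓝 z, w ≠ z → deriv f w ≠ 0 := eventually_nhdsWithin_iff.1 h
      have h2 : ∀ᶠ y in 𝓝 (f z), y ≠ f z → DifferentiableAt ℂ (invFunOn f U) y := by
        refine nhds_le_map_of_injOn hU hf hinj hz ?_
        rw [mem_map]
        filter_upwards [h', hU.mem_nhds hz] with w hw hwU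
        intro hne
        have hwz : w ≠ z := fun e => hne (by rw [e])
        exact (hasDerivAt_invFunOn_of_ne hU hf hinj hwU (hw hwz)).differentiableAt
      exact eventually_nhdsWithin_iff.2 h2
    have hA := Complex.analyticAt_of_differentiable_on_punctured_nhds_of_continuousAt hg hc
    refine not_differentiableAt_of_local_left_inverse_hasDerivAt_zero (f := f) ?_ ?_
      hA.differentiableAt
    · rw [hinj.leftInvOn_invFunOn hz, ← h0]
      exact ha.differentiableAt.hasDerivAt
    · exact eventually_rightInv hU hf hinj hz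

/-- The inverse of an injective holomorphic function is holomorphic. -/
theorem hasDerivAt_invFunOn {U : Set ℂ} (hU : IsOpen U) {f : ℂ → ℂ}
    (hf : DifferentiableOn ℂ f U) (hinj : Set.InjOn f U) {z : ℂ} (hz : z ∈ U) :
    HasDerivAt (invFunOn f U) (deriv f z)⁻¹ (f z) :=
  hasDerivAt_invFunOn_of_ne hU hf hinj hz (deriv_ne_zero_of_injOn hU hf hinj hz)

theorem differentiableOn_invFunOn {U : Set ℂ} (hU : IsOpen U) {f : ℂ → ℂ}
    (hf : DifferentiableOn ℂ f U) (hinj : Set.InjOn f U) :
    DifferentiableOn ℂ (invFunOn f U) (f '' U) := by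
  rintro _ ⟨z, hz, rfl⟩
  exact (hasDerivAt_invFunOn hU hf hinj hz).differentiableAt.differentiableWithinAt

/-- Local Hurwitz theorem: a locally uniform limit of nowhere vanishing holomorphic functions
that vanishes at a point vanishes near this point. -/
theorem hurwitz_local {ι : Type*} {l : Filter ι} [l.NeBot] {U : Set ℂ} (hU : IsOpen U)
    {F : ι → ℂ → ℂ} {f : ℂ → ℂ} (hF : ∀ᶠ i in l, DifferentiableOn ℂ (F i) U)
    (hF0 : ∀ᶠ i in l, ∀ z ∈ U, F i z ≠ 0) (hlim : TendstoLocallyUniformlyOn F f l U)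
    {z : ℂ} (hz : z ∈ U) (hfz : f z = 0) : ∀ᶠ w in 𝓝 z, f w = 0 := by
  have hf : DifferentiableOn ℂ f U := hlim.differentiableOn hF hU
  have ha : AnalyticAt ℂ f z := hf.analyticAt (hU.mem_nhds hz)
  rcases ha.eventually_eq_zero_or_eventually_ne_zero with h | h
  · exact h
  exfalso
  have h' : ∀ᶠ w in 𝓝 z, w ≠ z → f w ≠ 0 := eventually_nhdsWithin_iff.1 h
  obtain ⟨r, hr, hb⟩ := Metric.nhds_basis_closedBall.mem_iff.1 (h'.and (hU.mem_nhds hz))
  have hbU : closedBall z r ⊆ U := fun x hx => (hb hx).2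
  have hne : (sphere z r).Nonempty := NormedSpace.sphere_nonempty.2 hr.le
  have hcont : ContinuousOn (fun w => ‖f w‖) (sphere z r) :=
    (hf.continuousOn.mono (sphere_subset_closedBall.trans hbU)).norm
  obtain ⟨x, hx, hmin⟩ := (isCompact_sphere z r).exists_isMinOn hne hcont
  have hxz : x ≠ z := by
    rintro rfl
    simp at hx
    exact hr.ne hx
  have hd : 0 < ‖f x‖ := norm_pos_iff.2 ((hb (sphere_subset_closedBall hx)).1 hxz)
  set d := ‖f x‖ with hd_def
  have hunif : TendstoUniformlyOn F f l (closedBall z r) :=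
    (tendstoLocallyUniformlyOn_iff_forall_isCompact hU).1 hlim _ hbU (isCompact_closedBall z r)
  have hev := Metric.tendstoUniformlyOn_iff.1 hunif (d / 2) (by positivity)
  obtain ⟨i, ⟨hi1, hi2⟩, hi3⟩ := ((hF.and hF0).and hev).exists
  have hinv : DiffContOnCl ℂ (fun w => (F i w)⁻¹) (ball z r) := by
    refine DifferentiableOn.diffContOnCl ?_
    rw [closure_ball z hr.ne']
    exact (hi1.mono hbU).inv fun w hw => hi2 w (hbU hw)
  have hbound : ∀ w ∈ frontier (ball z r), ‖(F i w)⁻¹‖ ≤ (d / 2)⁻¹ := by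
    intro w hw
    rw [frontier_ball z hr.ne'] at hw
    rw [norm_inv]
    refine inv_anti₀ (by positivity) ?_
    have h1 : d ≤ ‖f w‖ := hmin hw
    have h2 := hi3 w (sphere_subset_closedBall hw)
    rw [dist_eq_norm] at h2
    have h3 : ‖f w‖ ≤ ‖f w - F i w‖ + ‖F i w‖ := by
      simpa using norm_add_le (f w - F i w) (F i w)
    linarith
  have hcen := Complex.norm_le_of_forall_mem_frontier_norm_le isBounded_ball hinv hbound
    (subset_closure (mem_ball_self hr))
  have h2 := hi3 z (mem_closedBall_self hr.le)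
  rw [hfz, dist_comm, dist_zero_right] at h2
  rw [norm_inv] at hcen
  have hpos : 0 < ‖F i z‖ := norm_pos_iff.2 (hi2 z hz)
  have := (inv_le_inv₀ hpos (by positivity)).1 hcen
  linarith

/-- Hurwitz's theorem for injective maps: a locally uniform limit of injective holomorphic maps on
a connected open set is injective or constant. -/
theorem hurwitz_injOn {ι : Type*} {l : Filter ι} [l.NeBot] {U : Set ℂ} (hU : IsOpen U)
    (hUc : IsPreconnected U) {F : ι → ℂ → ℂ} {f : ℂ → ℂ}
    (hF : ∀ᶠ i in l, DifferentiableOn ℂ (F i) U) (hFi : ∀ᶠ i in l, InjOn (F i) U)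
    (hlim : TendstoLocallyUniformlyOn F f l U) :
    InjOn f U ∨ ∃ c, ∀ z ∈ U, f z = c := by
  by_cases hinj : InjOn f U
  · exact Or.inl hinj
  right
  simp only [InjOn, not_forall] at hinj
  obtain ⟨a, ha, b, hb, hab, hne⟩ := hinj
  have hf : DifferentiableOn ℂ f U := hlim.differentiableOn hF hU
  have hV : IsOpen (U \ {a}) := hU.sdiff isClosed_singleton
  have hlim' : TendstoLocallyUniformlyOn (fun i w => F i w - F i a) (fun w => f w - f a) l
      (U \ {a}) := by
    have h1 : TendstoLocallyUniformlyOn (fun i (_ : ℂ) => F i a) (fun _ => f a) l U :=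
      ((hlim.tendsto_at ha).tendstoUniformlyOn_const U).tendstoLocallyUniformlyOn
    exact (hlim.sub h1).mono sdiff_subset
  have hloc := hurwitz_local hV (F := fun i w => F i w - F i a) (f := fun w => f w - f a)
    (by
      filter_upwards [hF] with i hi
      exact (hi.mono sdiff_subset).sub_const _)
    (by
      filter_upwards [hFi] with i hi w hw
      exact sub_ne_zero.2 fun e => hw.2 (hi hw.1 ha e))
    hlim' (z := b) ⟨hb, fun e => hne e.symm⟩ (by simp [hab])
  refine ⟨f a, fun z hz => ?_⟩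
  have hA : AnalyticOnNhd ℂ (fun w => f w - f a) U := (hf.sub_const _).analyticOnNhd hU
  have := hA.eqOn_zero_of_preconnected_of_eventuallyEq_zero hUc hb hloc hz
  exact sub_eq_zero.1 this

end Crest.Agent.Lib.RMT
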