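import Mathlib
import Crest.Agent.Lib.RMT.Hurwitz

/-!
The Riemann mapping theorem (and Montel's theorem along an ultrafilter).
Steps 1 and 2 are adapted from the (module-private) lemmas of Mathlib's `RiemannMapping.lean`.
-/

set_option autoImplicit false

open Set Filter Metric Function Complex
open scoped Topology Pointwise ComplexConjugate

namespace Crest.Agent.Lib.RMT

/-- Montel's theorem along an ultrafilter for maps into the closed unit disc. -/
theorem montel_ultrafilter {ι : Type*} (l : Ultrafilter ι) {U : Set ℂ} (hU : IsOpen U)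
    {F : ι → ℂ → ℂ} (hF : ∀ i, DifferentiableOn ℂ (F i) U)
    (hb : ∀ i, MapsTo (F i) U (closedBall 0 1)) :
    ∃ f : ℂ → ℂ, TendstoLocallyUniformlyOn F f l U := by
  have hpt : ∀ z ∈ U, ∃ c, Tendsto (fun i => F i z) l (𝓝 c) := by
    intro z hz
    have hle : (l.map (fun i => F i z) : Filter ℂ) ≤ 𝓟 (closedBall 0 1) := by
      rw [le_principal_iff, Ultrafilter.mem_coe, Ultrafilter.mem_map]
      exact univ_mem' fun i => hb i hz
    obtain ⟨c, -, hc⟩ := (isCompact_closedBall (0 : ℂ) 1).ultrafilter_le_nhds _ hle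
    exact ⟨c, hc⟩
  choose! f hf using hpt
  refine ⟨f, Metric.tendstoLocallyUniformlyOn_iff.2 fun ε hε x hx => ?_⟩
  obtain ⟨r, hr, hrU⟩ := Metric.mem_nhds_iff.1 (hU.mem_nhds hx)
  have hlip : ∀ i, ∀ y ∈ ball x r, dist (F i y) (F i x) ≤ 2 / r * dist y x := by
    intro i y hy
    refine Complex.dist_le_div_mul_dist_of_mapsTo_ball ((hF i).mono hrU) ?_ hy
    intro w hw
    have h1 := hb i (hrU hw)
    have h2 := hb i hx
    rw [mem_closedBall] at h1 h2 ⊢
    have := dist_triangle_right (F i w) (F i x) 0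
    linarith
  have hlip' : ∀ y ∈ ball x r, dist (f y) (f x) ≤ 2 / r * dist y x := by
    intro y hy
    exact le_of_tendsto' ((hf y (hrU hy)).dist (hf x hx)) fun i => hlip i y hy
  set δ := min r (ε * r / 8) with hδ
  have hδ0 : 0 < δ := lt_min hr (by positivity)
  refine ⟨ball x δ, mem_nhdsWithin_of_mem_nhds (ball_mem_nhds x hδ0), ?_⟩
  have hev := Metric.tendsto_nhds.1 (hf x hx) (ε / 2) (by positivity)
  filter_upwards [hev] with i hi y hy
  have hyr : y ∈ ball x r := ball_subset_ball (min_le_left _ _) hy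
  have hyd : dist y x ≤ ε * r / 8 := (mem_ball.1 hy).le.trans (min_le_right _ _)
  have h3 : 2 / r * dist y x ≤ ε / 4 := by
    calc 2 / r * dist y x ≤ 2 / r * (ε * r / 8) := by gcongr
      _ = ε / 4 := by field_simp; ring
  have h4 := hlip i y hyr
  have h5 := hlip' y hyr
  have h6 := dist_triangle4 (f y) (f x) (F i x) (F i y)
  rw [dist_comm (f x) (F i x), dist_comm (F i x) (F i y)] at h6
  linarith

theorem exists_injective_not_dense {U : Set ℂ} (hUo : IsOpen U)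
    (hUc : IsSimplyConnected U) (hU : U ≠ univ) :
    ∃ f : ℂ → ℂ, Injective f ∧ ¬Dense (f '' U) ∧ ∀ z ∈ U, deriv f z ≠ 0 := by
  wlog hU₀ : 0 ∉ U
  · rw [ne_univ_iff_exists_notMem] at hU
    rcases hU with ⟨a, ha⟩
    specialize this (hUo.vadd (-a)) (by simpa) (by simp [hU])
      (by simpa [mem_vadd_set_iff_neg_vadd_mem])
    rcases this with ⟨f, hf_inj, hf_dense, hdf⟩
    refine ⟨f ∘ (-a + ·), hf_inj.comp (add_right_injective (-a)), ?_, fun z hz ↦ ?_⟩
    · simpa only [← image_vadd, Set.image_image] using! hf_dense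
    · simpa [Function.comp_def, deriv_comp_const_add] using hdf (-a + z) (mapsTo_image _ _ hz)
  rcases exists_continuousOn_pow_eq hUc hUo continuousOn_id (by rwa [image_id]) two_ne_zero
    with ⟨f, hfc, hf_inv⟩
  replace hf_inv : LeftInverse (· ^ 2) f := hf_inv
  have hf₀ : ∀ z ∈ U, f z ≠ 0 := by
    intro z hz hfz
    simpa [hfz, (ne_of_mem_of_not_mem hz hU₀).symm] using hf_inv z
  have hdf : ∀ z ∈ U, HasStrictDerivAt f (2 * f z)⁻¹ z := by
    intro z hz
    apply HasStrictDerivAt.of_local_left_inverse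
    · exact hfc.continuousAt <| hUo.mem_nhds hz
    · simpa using hasStrictDerivAt_pow 2 (f z)
    · simpa using hf₀ z hz
    · exact .of_forall hf_inv
  refine ⟨f, hf_inv.injective, ?_, fun z hz ↦ ?_⟩
  · simp only [Dense, not_forall, mem_closure_iff_frequently, not_frequently]
    rcases hUc.nonempty with ⟨x, hx⟩
    use -f x
    have : f '' U ∈ 𝓝 (f x) := by
      rw [← (hdf x hx).map_nhds_eq (by simpa using hf₀ x hx)]
      exact Filter.image_mem_map <| hUo.mem_nhds hx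
    rw [nhds_neg, eventually_neg]
    filter_upwards [this]
    rintro _ ⟨a, ha, rfl⟩ ⟨b, hb, hab⟩
    obtain rfl : a = b := by
      rw [← hf_inv b, hab]
      simp [hf_inv a]
    refine hf₀ a ha ?_
    linear_combination hab / 2
  · simpa [(hdf z hz).hasDerivAt.deriv] using hf₀ z hz

theorem exists_mapsTo_unitBall {U : Set ℂ} (hUo : IsOpen U)
    (hUc : IsSimplyConnected U) (hU : U ≠ univ) :
    ∃ f : ℂ → ℂ, MapsTo f U (ball 0 1) ∧ InjOn f U ∧ DifferentiableOn ℂ f U := by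
  rcases exists_injective_not_dense hUo hUc hU with ⟨f, hf_inj, hfd, hdf⟩
  obtain ⟨x, ε, hε₀, hε⟩ : ∃ (x : ℂ) (ε : ℝ), 0 < ε ∧ ∀ a ∈ U, ε < dist (f a) x := by
    simpa [Dense, mem_closure_iff_nhds_basis Metric.nhds_basis_closedBall] using hfd
  have hfx : ∀ z ∈ U, f z ≠ x := fun z hz ↦ by simpa using hε₀.trans (hε z hz)
  use fun z ↦ ε / (f z - x)
  refine ⟨?mapsTo, ?injOn, ?deriv⟩
  case mapsTo =>
    intro z hz
    rw [mem_ball_zero_iff, norm_div, norm_real, Real.norm_of_nonneg hε₀.le, div_lt_one₀]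
    · simpa [dist_eq_norm] using hε z hz
    · simpa [sub_eq_zero] using hfx z hz
  case injOn =>
    intro z hz w hw heq
    simpa [div_eq_mul_inv, hε₀.ne', hf_inj.eq_iff] using heq
  case deriv =>
    intro z hz
    have hdz : DifferentiableAt ℂ f z := differentiableAt_of_deriv_ne_zero (hdf z hz)
    exact ((differentiableAt_const _).div (hdz.sub_const _)
      (sub_ne_zero.2 (hfx z hz))).differentiableWithinAt

/-- The disc automorphism sending `a` to `0`. -/
noncomputable def mob (a z : ℂ) : ℂ := (z - a) / (1 - conj a * z)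

theorem mob_den_ne {a z : ℂ} (ha : ‖a‖ < 1) (hz : ‖z‖ < 1) : 1 - conj a * z ≠ 0 := by
  intro h
  have h1 : conj a * z = 1 := (sub_eq_zero.1 h).symm
  have h2 : ‖conj a * z‖ < 1 := by
    rw [norm_mul, RCLike.norm_conj]
    exact mul_lt_one_of_nonneg_of_lt_one_left (norm_nonneg _) ha hz.le
  rw [h1] at h2
  simp at h2

theorem norm_mob_lt {a z : ℂ} (ha : ‖a‖ < 1) (hz : ‖z‖ < 1) : ‖mob a z‖ < 1 := by
  have hd := mob_den_ne ha hz
  rw [mob, norm_div, div_lt_one (norm_pos_iff.2 hd)]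
  refine lt_of_pow_lt_pow_left₀ 2 (norm_nonneg _) ?_
  have ha2 : ‖a‖ ^ 2 < 1 := pow_lt_one₀ (norm_nonneg _) ha two_ne_zero
  have hz2 : ‖z‖ ^ 2 < 1 := pow_lt_one₀ (norm_nonneg _) hz two_ne_zero
  have key : ‖1 - conj a * z‖ ^ 2 - ‖z - a‖ ^ 2 = (1 - ‖a‖ ^ 2) * (1 - ‖z‖ ^ 2) := by
    simp only [Complex.sq_norm, Complex.normSq_apply, sub_re, sub_im, mul_re, mul_im, one_re,
      one_im, conj_re, conj_im]
    ring
  nlinarith [mul_pos (sub_pos.2 ha2) (sub_pos.2 hz2)]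

theorem mob_injOn {a : ℂ} (ha : ‖a‖ < 1) : InjOn (mob a) (ball 0 1) := by
  intro z hz w hw h
  rw [mem_ball_zero_iff] at hz hw
  rw [mob, mob, div_eq_div_iff (mob_den_ne ha hz) (mob_den_ne ha hw)] at h
  have h1 : (z - w) * (1 - conj a * a) = 0 := by linear_combination h
  exact sub_eq_zero.1 ((mul_eq_zero.1 h1).resolve_right (mob_den_ne ha ha))

theorem mob_self (a : ℂ) : mob a a = 0 := by simp [mob]

theorem mob_eq_zero {a z : ℂ} (ha : ‖a‖ < 1) (hz : ‖z‖ < 1) (h : mob a z = 0) : z = a := by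
  rw [mob, div_eq_zero_iff] at h
  exact sub_eq_zero.1 (h.resolve_right (mob_den_ne ha hz))

theorem hasDerivAt_mob {a z : ℂ} (ha : ‖a‖ < 1) (hz : ‖z‖ < 1) :
    HasDerivAt (mob a) ((1 - conj a * a) / (1 - conj a * z) ^ 2) z := by
  have h1 : HasDerivAt (fun z : ℂ => z - a) 1 z := (hasDerivAt_id z).sub_const a
  have h2 : HasDerivAt (fun z : ℂ => 1 - conj a * z) (-(conj a * 1)) z :=
    ((hasDerivAt_id z).const_mul (conj a)).const_sub 1
  have h3 := h1.div h2 (mob_den_ne ha hz)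
  have e : (1 - conj a * a) = 1 * (1 - conj a * z) - (z - a) * (-(conj a * 1)) := by ring
  rw [e]
  exact h3

/-- The family of normalised injective holomorphic maps to the unit disc. -/
structure InFam (U : Set ℂ) (x₀ : ℂ) (f : ℂ → ℂ) : Prop where
  diff : DifferentiableOn ℂ f U
  maps : MapsTo f U (ball 0 1)
  inj : InjOn f U
  zero : f x₀ = 0

theorem inFam_mob {U : Set ℂ} {x₀ : ℂ} (hx₀ : x₀ ∈ U) {f : ℂ → ℂ} (hd : DifferentiableOn ℂ f U)
    (hm : MapsTo f U (ball 0 1)) (hi : InjOn f U) : InFam U x₀ (mob (f x₀) ∘ f) := by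
  have ha : ‖f x₀‖ < 1 := mem_ball_zero_iff.1 (hm hx₀)
  refine ⟨fun z hz => ?_, fun z hz => ?_, (mob_injOn ha).comp hi hm, mob_self _⟩
  · exact (hasDerivAt_mob ha (mem_ball_zero_iff.1 (hm hz))).differentiableAt.comp_differentiableWithinAt
      z (hd z hz)
  · exact mem_ball_zero_iff.2 (norm_mob_lt ha (mem_ball_zero_iff.1 (hm hz)))

/-- The Koebe square-root trick: a non-surjective member of the family can be improved. -/
theorem exists_better {U : Set ℂ} (hUo : IsOpen U) (hUc : IsSimplyConnected U) {x₀ : ℂ}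
    (hx₀ : x₀ ∈ U) {f : ℂ → ℂ} (hf : InFam U x₀ f) {w : ℂ} (hw : ‖w‖ < 1) (hwU : w ∉ f '' U) :
    ∃ g, InFam U x₀ g ∧ ‖deriv f x₀‖ < ‖deriv g x₀‖ := by
  have hfz : ∀ z ∈ U, ‖f z‖ < 1 := fun z hz => mem_ball_zero_iff.1 (hf.maps hz)
  set h : ℂ → ℂ := mob w ∘ f with hh
  have hhd : ∀ z ∈ U, HasDerivAt h ((1 - conj w * w) / (1 - conj w * f z) ^ 2 * deriv f z) z :=
    fun z hz => (hasDerivAt_mob hw (hfz z hz)).comp z
      (hf.diff.differentiableAt (hUo.mem_nhds hz)).hasDerivAt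
  have hh0 : ∀ z ∈ U, h z ≠ 0 := fun z hz e => hwU ⟨z, hz, mob_eq_zero hw (hfz z hz) e⟩
  have hhc : ContinuousOn h U := fun z hz => (hhd z hz).continuousAt.continuousWithinAt
  obtain ⟨s, hsc, hs⟩ := exists_continuousOn_pow_eq hUc hUo hhc
    (by rintro ⟨z, hz, e⟩; exact hh0 z hz e) two_ne_zero
  have hs0 : ∀ z ∈ U, s z ≠ 0 := by
    intro z hz e
    apply hh0 z hz
    rw [← hs z, e]
    simp
  have hsd : ∀ z ∈ U, HasDerivAt s
      ((1 - conj w * w) / (1 - conj w * f z) ^ 2 * deriv f z / (2 * s z)) z := by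
    intro z hz
    refine HasDerivAt.of_comp_left (f := fun t : ℂ => t ^ 2)
      (hsc.continuousAt (hUo.mem_nhds hz)) ?_ (hhd z hz) ?_ ?_
    · simpa using hasDerivAt_pow 2 (s z)
    · simpa using hs0 z hz
    · exact Eventually.of_forall hs
  have hsn : ∀ z ∈ U, ‖s z‖ < 1 := by
    intro z hz
    have h1 : ‖s z‖ ^ 2 < 1 := by
      rw [← norm_pow, hs z]
      exact norm_mob_lt hw (hfz z hz)
    exact (pow_lt_one_iff_of_nonneg (norm_nonneg _) two_ne_zero).1 h1
  have hsi : InjOn s U := by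
    intro a ha b hb e
    have : h a = h b := by rw [← hs a, ← hs b, e]
    exact hf.inj ha hb (mob_injOn hw (hf.maps ha) (hf.maps hb) this)
  refine ⟨mob (s x₀) ∘ s, inFam_mob hx₀
    (fun z hz => (hsd z hz).differentiableAt.differentiableWithinAt)
    (fun z hz => mem_ball_zero_iff.2 (hsn z hz)) hsi, ?_⟩
  have hc1 := hsn x₀ hx₀
  have hc0 : 0 < ‖s x₀‖ := norm_pos_iff.2 (hs0 x₀ hx₀)
  have hd := ((hasDerivAt_mob hc1 hc1).comp x₀ (hsd x₀ hx₀)).deriv
  rw [hd, hf.zero]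
  have hcw : ‖s x₀‖ ^ 2 = ‖w‖ := by
    rw [← norm_pow, hs x₀, hh]
    simp [mob, hf.zero]
  have e1 : ∀ a : ℂ, ‖a‖ < 1 → ‖1 - conj a * a‖ = 1 - ‖a‖ ^ 2 := by
    intro a ha
    have ha2 : ‖a‖ ^ 2 < 1 := pow_lt_one₀ (norm_nonneg _) ha two_ne_zero
    rw [Complex.conj_mul', ← Complex.ofReal_pow, ← Complex.ofReal_one, ← Complex.ofReal_sub,
      Complex.norm_real, Real.norm_of_nonneg (by linarith)]
  have hD : 0 < ‖deriv f x₀‖ :=
    norm_pos_iff.2 (deriv_ne_zero_of_injOn hUo hf.diff hf.inj hx₀)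
  simp only [norm_mul, norm_div, norm_pow, e1 _ hc1, e1 _ hw, mul_zero, sub_zero, one_pow,
    div_one, Complex.norm_ofNat, ← hcw]
  set c := ‖s x₀‖
  set D := ‖deriv f x₀‖
  have hc2 : 0 < 1 - c ^ 2 := by nlinarith
  have e2 : (1 - c ^ 2) / (1 - c ^ 2) ^ 2 * ((1 - (c ^ 2) ^ 2) * D / (2 * c))
      = (1 + c ^ 2) / (2 * c) * D := by
    field_simp
    ring
  rw [e2]
  refine lt_mul_of_one_lt_left hD ?_
  rw [one_lt_div (by positivity)]
  nlinarith [sq_pos_of_pos (sub_pos.2 hc1)]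

/-- There is a member of the family maximising the derivative at the base point. -/
theorem exists_extremal {U : Set ℂ} (hUo : IsOpen U) (hUc : IsPreconnected U) {x₀ : ℂ}
    (hx₀ : x₀ ∈ U) (hne : ∃ f, InFam U x₀ f) :
    ∃ f, InFam U x₀ f ∧ ∀ g, InFam U x₀ g → ‖deriv g x₀‖ ≤ ‖deriv f x₀‖ := by
  obtain ⟨r, hr, hrU⟩ := Metric.mem_nhds_iff.1 (hUo.mem_nhds hx₀)
  set S : Set ℝ := (fun g => ‖deriv g x₀‖) '' {g | InFam U x₀ g} with hS
  have hSne : S.Nonempty := by
    obtain ⟨f, hf⟩ := hne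
    exact ⟨_, f, hf, rfl⟩
  have hSb : BddAbove S := by
    refine ⟨1 / r, ?_⟩
    rintro _ ⟨g, hg, rfl⟩
    refine Complex.norm_deriv_le_div_of_mapsTo_ball (hg.diff.mono hrU) ?_ hr
    rw [hg.zero]
    exact fun z hz => ball_subset_closedBall (hg.maps (hrU hz))
  obtain ⟨u, -, hu, huS⟩ := exists_seq_tendsto_sSup hSne hSb
  choose F hF hFu using huS
  let l : Ultrafilter ℕ := Ultrafilter.of atTop
  have hl : (l : Filter ℕ) ≤ atTop := Ultrafilter.of_le _
  obtain ⟨f, hf⟩ := montel_ultrafilter l hUo (fun i => (hF i).diff)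
    (fun i z hz => ball_subset_closedBall ((hF i).maps hz))
  have hFd : ∀ᶠ i in (l : Filter ℕ), DifferentiableOn ℂ (F i) U :=
    Eventually.of_forall fun i => (hF i).diff
  have hfd : DifferentiableOn ℂ f U := hf.differentiableOn hFd hUo
  have hder : ‖deriv f x₀‖ = sSup S := by
    have h1 := ((hf.deriv hFd hUo).tendsto_at hx₀).norm
    have h2 : Tendsto (fun i => ‖(deriv ∘ F) i x₀‖) l (𝓝 (sSup S)) :=
      (hu.mono_left hl).congr fun i => (hFu i).symm
    exact tendsto_nhds_unique h1 h2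
  have hpos : 0 < sSup S := by
    obtain ⟨g, hg⟩ := hne
    exact (norm_pos_iff.2 (deriv_ne_zero_of_injOn hUo hg.diff hg.inj hx₀)).trans_le
      (le_csSup hSb ⟨g, hg, rfl⟩)
  have hinj : InjOn f U := by
    rcases hurwitz_injOn hUo hUc hFd (Eventually.of_forall fun i => (hF i).inj) hf with h | ⟨c, hc⟩
    · exact h
    · exfalso
      have h1 : f =ᶠ[𝓝 x₀] fun _ => c := by
        filter_upwards [hUo.mem_nhds hx₀] with z hz using hc z hz
      rw [h1.deriv_eq] at hder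
      simp at hder
      exact hpos.ne hder
  have hcb : f '' U ⊆ closedBall 0 1 := by
    rintro _ ⟨z, hz, rfl⟩
    exact isClosed_closedBall.mem_of_tendsto (hf.tendsto_at hz)
      (Eventually.of_forall fun i => ball_subset_closedBall ((hF i).maps hz))
  refine ⟨f, ⟨hfd, fun z hz => ?_, hinj, ?_⟩, fun g hg => ?_⟩
  · have := interior_maximal hcb (isOpen_image_of_injOn hUo hfd hinj) (mem_image_of_mem f hz)
    rwa [interior_closedBall _ one_ne_zero] at this
  · refine tendsto_nhds_unique (hf.tendsto_at hx₀) ?_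
    exact tendsto_const_nhds.congr fun i => (hF i).zero.symm
  · rw [hder]
    exact le_csSup hSb ⟨g, hg, rfl⟩

/-- **Riemann mapping theorem**, bijection form. -/
theorem exists_bijOn_ball {U : Set ℂ} (hUo : IsOpen U) (hUc : IsSimplyConnected U)
    (hU : U ≠ Set.univ) {x₀ : ℂ} (hx₀ : x₀ ∈ U) :
    ∃ f : ℂ → ℂ, DifferentiableOn ℂ f U ∧ BijOn f U (Metric.ball 0 1) ∧ f x₀ = 0 := by
  obtain ⟨f₀, h1, h2, h3⟩ := exists_mapsTo_unitBall hUo hUc hU
  obtain ⟨f, hf, hmax⟩ := exists_extremal hUo hUc.isPathConnected.isConnected.isPreconnected hx₀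
    ⟨_, inFam_mob hx₀ h3 h1 h2⟩
  refine ⟨f, hf.diff, ⟨hf.maps, hf.inj, fun w hw => ?_⟩, hf.zero⟩
  by_contra hwU
  obtain ⟨g, hg, hlt⟩ := exists_better hUo hUc hx₀ hf (mem_ball_zero_iff.1 hw) hwU
  exact absurd (hmax g hg) (not_le.2 hlt)

/-- **Riemann mapping theorem**. -/
theorem exists_biholo_ball {U : Set ℂ} (hUo : IsOpen U) (hUc : IsSimplyConnected U)
    (hU : U ≠ Set.univ) {x₀ : ℂ} (hx₀ : x₀ ∈ U) :
    ∃ f g : ℂ → ℂ, DifferentiableOn ℂ f U ∧ DifferentiableOn ℂ g (Metric.ball 0 1) ∧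
      Set.MapsTo f U (Metric.ball 0 1) ∧ Set.MapsTo g (Metric.ball 0 1) U ∧
      (∀ z ∈ U, g (f z) = z) ∧ (∀ w ∈ Metric.ball (0 : ℂ) 1, f (g w) = w) ∧ f x₀ = 0 := by
  obtain ⟨f, hd, hb, h0⟩ := exists_bijOn_ball hUo hUc hU hx₀
  refine ⟨f, invFunOn f U, hd, ?_, hb.mapsTo, hb.surjOn.mapsTo_invFunOn,
    fun z hz => hb.injOn.leftInvOn_invFunOn hz, fun w hw => hb.surjOn.rightInvOn_invFunOn hw, h0⟩
  rw [← hb.image_eq]
  exact differentiableOn_invFunOn hUo hd hb.injOn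

end Crest.Agent.Lib.RMT
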